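import Vale.Agent.P045.Assemble
import Vale.Agent.P045.SmallExists

namespace Vale.Agent.Results.P045.RyserFails

open Finset Vale.Agent.P045

/-- Ryser's conjecture is false: for arbitrarily large `r` there is an intersecting `r`-partite
`r`-uniform hypergraph in which every vertex cover has at least `r` vertices. -/
theorem result :
    ∀ R : ℕ, ∃ r : ℕ, R ≤ r ∧ 2 ≤ r ∧
      ∃ (n : ℕ) (part : Fin n → Fin r) (H : Finset (Finset (Fin n))),
        H.Nonempty ∧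
        (∀ e ∈ H, ∀ i : Fin r, ∃! v, v ∈ e ∧ part v = i) ∧
        (∀ e ∈ H, e.card = r) ∧
        (∀ e ∈ H, ∀ e' ∈ H, ∃ v, v ∈ e ∧ v ∈ e') ∧
        (∀ T : Finset (Fin n), (∀ e ∈ H, ∃ v ∈ T, v ∈ e) → r ≤ T.card) ∧
        (∀ T : Finset (Fin n), (∀ e ∈ H, ∃ v ∈ T, v ∈ e) →
          ∀ M : Finset (Finset (Fin n)), M ⊆ H → (∀ e ∈ M, ∀ e' ∈ M, e ≠ e' → Disjoint e e') →
            (r - 1) * M.card < T.card) := by
  intro R
  obtain ⟨q₀, hq₀⟩ := small_exists
  obtain ⟨q, hqge, hqp⟩ := Nat.exists_infinite_primes (max R (max q₀ (2 ^ 200)))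
  have hR : R ≤ q := (le_max_left _ _).trans hqge
  have hq1 : q₀ ≤ q := ((le_max_left _ _).trans (le_max_right R _)).trans hqge
  have hq2 : 2 ^ 200 ≤ q := ((le_max_right _ _).trans (le_max_right R _)).trans hqge
  obtain ⟨Q, hQp, hQlo, hQhi⟩ := Nat.exists_prime_lt_and_le_two_mul (q ^ 3)
    (pow_ne_zero _ hqp.ne_zero)
  haveI : Fact q.Prime := ⟨hqp⟩
  haveI : Fact Q.Prime := ⟨hQp⟩
  obtain ⟨D⟩ := hq₀ q hq1
  have hS : Sizes Q q := sizes_of_large hq2 hQlo.le hQhi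
  obtain ⟨f, hf⟩ := exists_good D hS
  obtain ⟨n, part, H, h1, h2, h3, h4, h5⟩ := hypergraph f hS hf
  refine ⟨Q + q + 1, by omega, by omega, n, part, H, h1, h2, h3, h4, h5, ?_⟩
  intro T hT M hM hdis
  have hM1 : M.card ≤ 1 := card_le_one.2 fun e he e' he' => by
    by_contra hne
    obtain ⟨v, hv, hv'⟩ := h4 e (hM he) e' (hM he')
    exact disjoint_left.1 (hdis e he e' he' hne) hv hv'
  have := h5 T hT
  calc (Q + q + 1 - 1) * M.card ≤ (Q + q + 1 - 1) * 1 := Nat.mul_le_mul_left _ hM1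
    _ < T.card := by omega

end Vale.Agent.Results.P045.RyserFails
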